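import Vale.Agent.P060.Main

namespace Vale.Agent.Results.P060.SparseCompl

open Vale.Agent.P060

theorem result {V : Type} [Fintype V] (G : SimpleGraph V) (D : ℕ)
    (hD : ∀ v, (Gᶜ.neighborSet v).ncard ≤ D) (M : Gᶜ.Subgraph) (hM : M.IsMatching)
    (hc : 2 * (D + 2) ^ 2 ≤ M.verts.ncard) : ∃ t, G.Colorable t ∧ HasMinor G t :=
  main D hD M hM hc

end Vale.Agent.Results.P060.SparseCompl
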