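import Vale.Agent.P060.Main2

namespace Vale.Agent.Results.P060.TwoThirds

open Vale.Agent.P060

theorem result {V : Type} [Fintype V] (G : SimpleGraph V) (l : ℕ)
    (hD : ∀ v, (Gᶜ.neighborSet v).ncard < l ^ 2) (M : Gᶜ.Subgraph) (hM : M.IsMatching)
    (hl : Fintype.card V ≤ M.verts.ncard + l) (hc : 10 * l ^ 3 < M.verts.ncard) :
    ∃ t, G.Colorable t ∧ HasMinor G t :=
  main2 l hD M hM hl hc

end Vale.Agent.Results.P060.TwoThirds
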